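import Crest.Agent.X212.St29.Defs
import Crest.Agent.X212.Sm25.Pert
import Crest.Agent.X212.Sm25.Disc
import Crest.Agent.X212.Grm47.Germ
import Crest.Agent.X212.Grm47.Disc

/-!
# X212 / Sch47 (helper47): `St29.SchStmt`, `St29.UnkStmt`
-/

set_option autoImplicit false

open Set Filter Topology Function Metric
open scoped ContDiff Manifold
open Crest.Agent.R096.P5Spec_205 (HomeoOn)
open Crest.Agent.X212.Smo49 (PLAt str_iff plAt_of_univ)
open Crest.Agent.X212.Sm25 (An isOpen_An)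
open Crest.Agent.R105.Iod1_690 (isOpen_image_fd)

noncomputable section

namespace Crest.Agent.X212.Sch47

theorem unk : St29.UnkStmt := by
  intro t c δ h1 h2
  obtain ⟨F, ⟨R, f1⟩, f2⟩ := Grm47.exists_transl c (-c)
  obtain ⟨Ψ, p1, -⟩ := Glb47.exists_pushH t.isOpenEmbedding
    ((Homeomorph.refl Circle).prodCongr F.toHomeomorph)
    (isCompact_univ.prod (isCompact_closedBall (0 : ℂ) R)) fun x hx => Prod.ext rfl
      (f1 _ (not_le.1 fun h => hx ⟨mem_univ _, mem_closedBall_zero_iff.2 h⟩).le)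
  have p2 : ∀ u, Ψ (t.τ (u, c)) = t.τ (u, 0) := fun u => (p1 _).trans
    (congrArg (fun z => t.τ (u, z)) (f2.self_of_nhds.trans (add_neg_cancel c)))
  refine ⟨Ψ ∘ δ, Ψ.isOpenEmbedding.comp h1, ?_⟩
  rw [image_comp, h2]
  refine Subset.antisymm ?_ ?_
  · rintro _ ⟨_, ⟨⟨u, _⟩, ⟨-, rfl⟩, rfl⟩, rfl⟩
    exact ⟨(u, 0), ⟨mem_univ _, rfl⟩, (p2 u).symm⟩
  · rintro _ ⟨⟨u, _⟩, ⟨-, rfl⟩, rfl⟩
    exact ⟨_, ⟨(u, c), ⟨mem_univ _, rfl⟩, rfl⟩, p2 u⟩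

theorem homeoOn_of {h : ℂ → ℂ} {U : Set ℂ} (hU : IsOpen U) (hc : ContinuousOn h U)
    (hi : InjOn h U) : HomeoOn h U (h '' U) := by
  refine ⟨hi.bijOn_image, hc, invFunOn h U, continuousOn_iff'.2 fun t ht => ⟨h '' (U ∩ t),
    isOpen_image_fd rfl (hU.inter ht) (hc.mono inter_subset_left) (hi.mono inter_subset_left), ?_⟩,
    fun x hx => hi.leftInvOn_invFunOn hx⟩
  ext y
  refine and_congr_left ?_
  rintro ⟨x, hx, rfl⟩
  rw [mem_preimage, hi.leftInvOn_invFunOn hx, hi.mem_image_iff inter_subset_left hx]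
  exact ⟨fun h => ⟨hx, h⟩, fun h => h.2⟩

/-- the square of half side `1 / 2` becomes the unit sphere -/
def sqL : ℂ ≃L[ℝ] ℝ × ℝ := Complex.equivRealProdCLM.trans (Grm47.hom _ (c := 2⁻¹) (by norm_num))

theorem norm_sqL (z : ℂ) : ‖sqL z‖ = 2 * max |z.re| |z.im| := by
  show ‖((2 : ℝ)⁻¹)⁻¹ • (z.re, z.im)‖ = _
  rw [norm_smul]
  simp [Prod.norm_def]

theorem sq_lt {z : ℂ} (h : ‖sqL z‖ ≤ 1) : ‖z‖ < 1 := by
  rw [norm_sqL] at h
  have h1 := abs_le.1 (show |z.re| ≤ 1 / 2 by linarith [le_max_left |z.re| |z.im|])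
  have h2 := abs_le.1 (show |z.im| ≤ 1 / 2 by linarith [le_max_right |z.re| |z.im|])
  refine lt_of_pow_lt_pow_left₀ 2 zero_le_one ?_
  rw [Complex.sq_norm, Complex.normSq_apply]
  nlinarith

theorem lt_sq {z : ℂ} (h : 1 ≤ ‖sqL z‖) : 16⁻¹ < ‖z‖ := by
  rw [norm_sqL] at h
  linarith [max_le (Complex.abs_re_le_norm z) (Complex.abs_im_le_norm z)]

theorem conn : IsPreconnected {z : ℂ | 1 < ‖sqL z‖ ∧ ‖z‖ < 16} := by
  have hS : IsPreconnected (sphere (0 : ℂ) 2) := (isPathConnected_sphere (by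
    rw [← Module.finrank_eq_rank]; simp) 0 zero_le_two).isConnected.isPreconnected
  refine isPreconnected_of_forall 2 fun z hz => ?_
  have z0 : 0 < ‖z‖ := lt_trans (by norm_num) (lt_sq hz.1.le)
  have n : ∀ s : ℝ, 0 ≤ s → ‖s • z‖ = s * ‖z‖ := fun s hs => by
    rw [norm_smul, Real.norm_of_nonneg hs]
  have e : 2 / ‖z‖ * ‖z‖ = 2 := div_mul_cancel₀ _ z0.ne'
  refine ⟨(fun s : ℝ => s • z) '' uIcc 1 (2 / ‖z‖) ∪ sphere 0 2, union_subset ?_ fun w hw => ?_,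
    Or.inr (by simp), Or.inl ⟨1, left_mem_uIcc, one_smul _ _⟩,
    IsPreconnected.union ((2 / ‖z‖) • z) ⟨_, right_mem_uIcc, rfl⟩
      (by rw [mem_sphere_zero_iff_norm, n _ (by positivity), e])
      (isPreconnected_uIcc.image _ (by fun_prop)) hS⟩
  · rintro _ ⟨s, hs, rfl⟩
    rcases mem_uIcc.1 hs with h | h
    · refine ⟨?_, by rw [n s (by linarith)]; nlinarith [h.2]⟩
      rw [map_smul, norm_smul, Real.norm_of_nonneg (by linarith)]
      nlinarith [hz.1, h.1]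
    · have s0 : 0 ≤ s := le_trans (by positivity) h.1
      refine ⟨not_le.1 fun c => ?_, by rw [n s s0]; nlinarith [hz.2, h.2]⟩
      have := sq_lt c
      rw [n s s0] at this
      nlinarith [h.1]
  · rw [mem_sphere_zero_iff_norm] at hw
    exact ⟨not_le.1 fun c => by linarith [sq_lt c], by linarith⟩

theorem step {h : ℂ → ℂ} (hi : InjOn h (An 16⁻¹ 16))
    (hl : ∀ z ∈ An 16⁻¹ 16, IsLocalDiffeomorphAt 𝓘(ℝ, ℂ) 𝓘(ℝ, ℂ) ∞ h z) :
    (∃ g : ℂ → ℂ, IsOpenEmbedding g ∧ g '' sphere 0 1 = h '' sphere 0 1) ∨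
      ∃ D J : Set ℂ, IsCompact D ∧ IsOpen (D \ J) ∧ J ⊆ h '' An 16⁻¹ 1 ∧ h '' An 1 16 ⊆ D := by
  classical
  have UA : An 16⁻¹ 1 ⊆ An 16⁻¹ 16 := fun z hz => ⟨hz.1, by linarith [hz.2]⟩
  have hc : ContinuousOn h (An 16⁻¹ 16) := fun z hz =>
    (hl z hz).contMDiffAt.continuousAt.continuousWithinAt
  have CU : sqL ⁻¹' sphere 0 1 ⊆ An 16⁻¹ 1 := fun z hz =>
    ⟨lt_sq (mem_sphere_zero_iff_norm.1 hz).ge, sq_lt (mem_sphere_zero_iff_norm.1 hz).le⟩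
  obtain ⟨k, K, V, a1, a2, a3, a4, -, -, a7, a8⟩ := Sm25.plize (ρ := Complex.conjCLE) (by
      rw [Prf6.det_C]; simp) (isOpen_An _ _)
    (isOpen_image_fd rfl (isOpen_An _ _) (hc.mono UA) (hi.mono UA))
    (homeoOn_of (isOpen_An _ _) (hc.mono UA) (hi.mono UA)) (isOpen_An _ _) Subset.rfl
    ⟨fun z hz => (hl z (UA hz)).contMDiffAt.contDiffAt.contDiffWithinAt,
      fun z hz => Prf6.dt_eq h z ▸ Prf6.dt_ne (hl z (UA hz))⟩
    (sqL.toHomeomorph.isCompact_preimage.2 (isCompact_sphere _ _)) CU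
  have out : ∀ z, 1 ≤ ‖z‖ → k z = h z := fun z hz => a4 z fun c => (a3 c).2.not_ge hz
  have ki : InjOn k (An 16⁻¹ 16) := by
    have key : ∀ z ∈ An 16⁻¹ 16, ∀ w ∈ An 16⁻¹ 16, ‖z‖ < 1 → 1 ≤ ‖w‖ → k z ≠ k w := by
      intro z hz w hw z1 w1 e
      obtain ⟨v, hv, e'⟩ := a1.bij.mapsTo (x := z) ⟨hz.1, z1⟩
      rw [e, out w w1] at e'
      exact hv.2.not_ge (hi (UA hv) hw e' ▸ w1)
    intro z hz w hw e
    rcases lt_or_ge ‖z‖ 1 with z1 | z1 <;> rcases lt_or_ge ‖w‖ 1 with w1 | w1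
    · exact a1.bij.injOn ⟨hz.1, z1⟩ ⟨hw.1, w1⟩ e
    · exact absurd e (key z hz w hw z1 w1)
    · exact absurd e.symm (key w hw z hz w1 z1)
    · exact hi hz hw (by rwa [out z z1, out w w1] at e)
  have kc : ContinuousOn k (An 16⁻¹ 16) := fun z hz => by
    by_cases c : z ∈ K
    · exact (a1.cont.continuousAt ((isOpen_An _ _).mem_nhds (a3 c))).continuousWithinAt
    · refine (hc z hz).congr_of_eventuallyEq (nhdsWithin_le_nhds ?_) (a4 z c)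
      filter_upwards [a2.isClosed.isOpen_compl.mem_nhds c] with w hw using a4 w hw
  have pL : ∀ x, PLAt sqL x := plAt_of_univ (R096.Bd_416.pl_clm (R096.Ce_537.plOn_id _)
    (sqL : ℂ →L[ℝ] ℝ × ℝ))
  have pL' : ∀ x, PLAt sqL.symm x := plAt_of_univ (R096.Bd_416.pl_clm (R096.Ce_537.plOn_id _)
    (sqL.symm : ℝ × ℝ →L[ℝ] ℂ))
  have mC : ∀ x ∈ sphere (0 : ℝ × ℝ) 1, sqL.symm x ∈ sqL ⁻¹' sphere 0 1 := fun x hx => by
    simpa using hx
  obtain ⟨D, Φ, hΦ, hD, hU⟩ := Cor42.exists_disc (b := fun x => sqL (k (sqL.symm x)))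
    (Lad50.plOn_of_locPL (fun x hx => (pL _).comp ((str_iff.1 a8 _ (a7 (mC x hx))).comp (pL' x)))
      (isCompact_sphere _ _) Subset.rfl)
    fun x hx y hy e => sqL.symm.injective (ki (UA (CU (mC x hx))) (UA (CU (mC y hy)))
      (sqL.injective e))
  set J := (fun x => sqL (k (sqL.symm x))) '' sphere 0 1 with hJ
  set T := {z : ℂ | 1 < ‖sqL z‖ ∧ ‖z‖ < 16} with hT
  have TA : T ⊆ An 16⁻¹ 16 := fun z hz => ⟨lt_sq hz.1.le, hz.2⟩
  rcases (conn.image (fun z => sqL (k z)) (sqL.continuous.comp_continuousOn (kc.mono TA))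
    ).subset_or_subset hU hD.isCompact.isClosed.isOpen_compl
    (disjoint_left.2 fun y a b => b a.1) (by
      rintro _ ⟨z, hz, rfl⟩
      refine (em _).imp_left fun c => ⟨c, ?_⟩
      rintro ⟨x, hx, e⟩
      have := ki (UA (CU (mC x hx))) (TA hz) (sqL.injective e)
      exact hz.1.ne' (by rw [← this, sqL.apply_symm_apply]; exact mem_sphere_zero_iff_norm.1 hx))
    with c | c
  · refine Or.inr ⟨sqL ⁻¹' D, sqL ⁻¹' J, sqL.toHomeomorph.isCompact_preimage.2 hD.isCompact,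
      hU.preimage sqL.continuous, ?_, ?_⟩
    · rintro y ⟨x, hx, e⟩
      exact sqL.injective e ▸ a1.bij.mapsTo (CU (mC x hx))
    · rintro _ ⟨z, hz, rfl⟩
      rw [← out z hz.1.le]
      exact (c ⟨z, ⟨not_le.1 fun c => by linarith [sq_lt c, hz.1], hz.2⟩, rfl⟩).1
  left
  let G : ℂ → ℂ := fun z => if ‖sqL z‖ ≤ 1 then sqL.symm (Φ.f (sqL z)) else k z
  have g1 : ∀ z, ‖sqL z‖ ≤ 1 → G z = sqL.symm (Φ.f (sqL z)) := fun z hz => if_pos hz
  have g2 : ∀ z, 1 ≤ ‖sqL z‖ → G z = k z := fun z hz => by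
    rcases hz.eq_or_lt with e | e
    · rw [g1 z e.ge, hΦ (mem_sphere_zero_iff_norm.2 e.symm)]
      simp
    · exact if_neg e.not_ge
  have Gc : ContinuousOn G (closedBall 0 12) := by
    refine (ContinuousOn.union_of_isClosed (s := {z | ‖sqL z‖ ≤ 1})
      (t := {z | 1 ≤ ‖sqL z‖} ∩ closedBall 0 12)
      ((sqL.symm.continuous.comp_continuousOn (Φ.pf.1.comp sqL.continuous.continuousOn
        fun z hz => mem_closedBall_zero_iff.2 hz)).congr g1)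
      ((kc.mono fun z hz => ⟨lt_sq hz.1, by linarith [mem_closedBall_zero_iff.1 hz.2]⟩).congr
        fun z hz => g2 z hz.1) (isClosed_le (by fun_prop) continuous_const)
      ((isClosed_le continuous_const (by fun_prop)).inter isClosed_closedBall)).mono fun z hz => ?_
    exact (le_total ‖sqL z‖ 1).imp_right fun c => ⟨c, hz⟩
  have Gi : InjOn G (closedBall 0 12) := by
    have mT : ∀ z ∈ closedBall (0 : ℂ) 12, 1 < ‖sqL z‖ → z ∈ T := fun z hz c =>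
      ⟨c, by linarith [mem_closedBall_zero_iff.1 hz]⟩
    have key : ∀ z, ∀ w ∈ T, ‖sqL z‖ ≤ 1 → G z ≠ G w := fun z w hw hz e => by
      rw [g1 z hz, g2 w hw.1.le, sqL.symm_apply_eq] at e
      exact c ⟨w, hw, e.symm⟩ (Φ.mf (mem_closedBall_zero_iff.2 hz))
    intro z hz w hw e
    rcases le_or_gt ‖sqL z‖ 1 with z1 | z1 <;> rcases le_or_gt ‖sqL w‖ 1 with w1 | w1
    · rw [g1 z z1, g1 w w1] at e
      exact sqL.injective (Φ.injOn (mem_closedBall_zero_iff.2 z1) (mem_closedBall_zero_iff.2 w1)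
        (sqL.symm.injective e))
    · exact absurd e (key z w (mT w hw w1) z1)
    · exact absurd e.symm (key w z (mT z hz z1) w1)
    · exact ki (TA (mT z hz z1)) (TA (mT w hw w1)) (by rwa [g2 z z1.le, g2 w w1.le] at e)
  obtain ⟨ρ, r1, r2, r3, r4⟩ := Grm47.exists_rho
  have inj := (strictMono_of_deriv_pos r2).injective
  let e := Complex.equivRealProdCLM
  let r : ℂ → ℂ := fun z => e.symm (Prod.map ρ ρ (e z))
  have rm : ∀ z, r z ∈ closedBall (0 : ℂ) 12 := fun z => mem_closedBall_zero_iff.2 <|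
    (Complex.norm_le_abs_re_add_abs_im _).trans
      (show |ρ z.re| + |ρ z.im| ≤ 12 by linarith [r4 z.re, r4 z.im])
  have c1 : Continuous (G ∘ r) := Gc.comp_continuous (e.symm.continuous.comp
    ((r1.continuous.prodMap r1.continuous).comp e.continuous)) rm
  have i1 : Injective (G ∘ r) := fun z w h' =>
    (e.symm.injective.comp ((inj.prodMap inj).comp e.injective)) (Gi (rm z) (rm w) h')
  refine ⟨G ∘ r, .of_continuous_injective_isOpenMap c1 i1 fun U hU =>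
    isOpen_image_fd rfl hU c1.continuousOn i1.injOn, image_congr fun z hz => ?_⟩
  have z1 := mem_sphere_zero_iff_norm.1 hz
  have : r z = z := e.symm_apply_eq.2 (Prod.ext (r3 _ ((Complex.abs_re_le_norm z).trans z1.le))
    (r3 _ ((Complex.abs_im_le_norm z).trans z1.le)))
  rw [comp_apply, this, g2 z (not_lt.1 fun c => (sq_lt c.le).ne z1), out z z1.ge]

/-- radial powers -/
def pw (ε : ℝ) (z : ℂ) : ℂ := ‖z‖ ^ (ε - 1) • z

theorem norm_pw (ε : ℝ) {z : ℂ} (hz : z ≠ 0) : ‖pw ε z‖ = ‖z‖ ^ ε := by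
  have := norm_pos_iff.2 hz
  rw [pw, norm_smul, Real.norm_of_nonneg (by positivity), Real.rpow_sub_one this.ne',
    div_mul_cancel₀ _ this.ne']

theorem pw_ne (ε : ℝ) {z : ℂ} (hz : z ≠ 0) : pw ε z ≠ 0 := by
  have := norm_pos_iff.2 hz
  rw [← norm_pos_iff, norm_pw ε hz]
  positivity

theorem pw_pw {ε ε' : ℝ} (h : ε * ε' = 1) {z : ℂ} (hz : z ≠ 0) : pw ε' (pw ε z) = z := by
  have := norm_pos_iff.2 hz
  rw [pw, norm_pw ε hz, pw, smul_smul, ← Real.rpow_mul this.le, ← Real.rpow_add this,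
    show ε * (ε' - 1) + (ε - 1) = 0 by linarith, Real.rpow_zero, one_smul]

theorem cd_pw (ε : ℝ) : ContMDiffOn 𝓘(ℝ, ℂ) 𝓘(ℝ, ℂ) ∞ (pw ε) {0}ᶜ := fun _ hz =>
  (((Glue52.contDiffAt_norm_c hz).rpow_const_of_ne (norm_ne_zero_iff.2 hz)).smul
    contDiffAt_id).contMDiffAt.contMDiffWithinAt

theorem ld_pw {ε : ℝ} (h : ε ≠ 0) {z : ℂ} (hz : z ≠ 0) :
    IsLocalDiffeomorphAt 𝓘(ℝ, ℂ) 𝓘(ℝ, ℂ) ∞ (pw ε) z :=
  Cyl58.ld_of_inverse isOpen_compl_singleton isOpen_compl_singleton (cd_pw ε) (cd_pw ε⁻¹)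
    (fun _ => pw_ne ε) (fun _ => pw_ne ε⁻¹) (fun _ => pw_pw (mul_inv_cancel₀ h))
    (fun _ => pw_pw (inv_mul_cancel₀ h)) hz

theorem pw_sphere {ε : ℝ} {z : ℂ} (hz : z ∈ sphere (0 : ℂ) 1) : pw ε z = z := by
  simp [pw, mem_sphere_zero_iff_norm.1 hz]

theorem an_ne {a b : ℝ} (ha : 0 ≤ a) {z : ℂ} (hz : z ∈ An a b) : z ≠ 0 :=
  norm_pos_iff.1 (ha.trans_lt hz.1)

theorem repar {h : ℂ → ℂ} {A : Set ℂ} (hi : InjOn h A)
    (hl : ∀ z ∈ A, IsLocalDiffeomorphAt 𝓘(ℝ, ℂ) 𝓘(ℝ, ℂ) ∞ h z) {ε : ℝ} (hε : ε ≠ 0)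
    (hm : MapsTo (pw ε) (An 16⁻¹ 16) A) : InjOn (h ∘ pw ε) (An 16⁻¹ 16) ∧
      (∀ z ∈ An 16⁻¹ 16, IsLocalDiffeomorphAt 𝓘(ℝ, ℂ) 𝓘(ℝ, ℂ) ∞ (h ∘ pw ε) z) ∧
      (h ∘ pw ε) '' sphere 0 1 = h '' sphere 0 1 :=
  ⟨hi.comp (LeftInvOn.injOn (f₁' := pw ε⁻¹) fun _ hz =>
      pw_pw (mul_inv_cancel₀ hε) (an_ne (by norm_num) hz)) hm,
    fun z hz => Cyl58.ld_comp (hl _ (hm hz)) (ld_pw hε (an_ne (by norm_num) hz)),
    image_congr fun _ hz => congrArg h (pw_sphere hz)⟩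

theorem inv_an {a b : ℝ} (ha : 0 < a) (hb : 0 < b) : MapsTo (pw (-1)) (An a b) (An b⁻¹ a⁻¹) :=
  fun z hz => by
    have z0 := ha.trans hz.1
    rw [An, mem_ofPred_eq, norm_pw _ (an_ne ha.le hz), Real.rpow_neg_one]
    exact ⟨(inv_lt_inv₀ hb z0).2 hz.2, (inv_lt_inv₀ z0 ha).2 hz.1⟩

theorem fat {h : ℂ → ℂ} (hi : InjOn h (An 16⁻¹ 16))
    (hl : ∀ z ∈ An 16⁻¹ 16, IsLocalDiffeomorphAt 𝓘(ℝ, ℂ) 𝓘(ℝ, ℂ) ∞ h z) :
    ∃ g : ℂ → ℂ, IsOpenEmbedding g ∧ g '' sphere 0 1 = h '' sphere 0 1 := by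
  obtain ⟨b1, b2, b3⟩ := repar hi hl (ε := -1) (by norm_num)
    (by simpa using inv_an (a := 16⁻¹) (b := 16) (by norm_num) (by norm_num))
  rcases step hi hl with H | ⟨D, J, d1, d2, d3, d4⟩
  · exact H
  rcases step b1 b2 with H | ⟨D', J', e1, e2, e3, e4⟩
  · exact b3 ▸ H
  exfalso
  have m1 : MapsTo (pw (-1)) (An 16⁻¹ 1) (An 1 16) := by
    simpa using inv_an (a := 16⁻¹) (b := 1) (by norm_num) one_pos
  have e3' : J' ⊆ h '' An 1 16 := e3.trans (by rw [image_comp]; exact image_mono m1.image_subset)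
  have e4' : h '' An 16⁻¹ 1 ⊆ D' := by
    rintro _ ⟨z, hz, rfl⟩
    exact e4 ⟨_, m1 hz, congrArg h (pw_pw (by norm_num) (an_ne (by norm_num) hz))⟩
  have dj : ∀ x ∈ J, x ∉ J' := fun x h1 h2 => by
    obtain ⟨z, hz, rfl⟩ := d3 h1
    obtain ⟨w, hw, e⟩ := e3' h2
    have := hi (show w ∈ An 16⁻¹ 16 from ⟨by linarith [hw.1], hw.2⟩)
      (show z ∈ An 16⁻¹ 16 from ⟨hz.1, by linarith [hz.2]⟩) e
    exact (hw.1.trans (this ▸ hz.2)).false
  have : D ∪ D' = (D \ J) ∪ (D' \ J') := by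
    refine Subset.antisymm ?_ (union_subset_union sdiff_subset sdiff_subset)
    rintro x (hx | hx)
    · by_cases c : x ∈ J
      exacts [Or.inr ⟨e4' (d3 c), dj x c⟩, Or.inl ⟨hx, c⟩]
    · by_cases c : x ∈ J'
      exacts [Or.inl ⟨d4 (e3' c), fun c' => dj x c' c⟩, Or.inr ⟨hx, c⟩]
  exact (d1.union e1).ne_univ (IsClopen.eq_univ ⟨(d1.union e1).isClosed, this ▸ d2.union e2⟩
    ⟨h 2, Or.inl (d4 ⟨2, ⟨by norm_num, by norm_num⟩, rfl⟩)⟩)

theorem sch : St29.SchStmt := by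
  intro h a b ha a1 b1 hi hl
  have c : ContinuousAt (fun ε : ℝ => (16 : ℝ) ^ ε) 0 :=
    Real.continuousAt_const_rpow (by norm_num)
  have h1 : ∀ᶠ ε in 𝓝[>] (0 : ℝ), (16 : ℝ) ^ ε < min b a⁻¹ := nhdsWithin_le_nhds
    (c.eventually_lt continuousAt_const (by simpa using ⟨b1, (one_lt_inv₀ ha).2 a1⟩))
  obtain ⟨ε, h2, h3⟩ := (h1.and self_mem_nhdsWithin).exists
  obtain ⟨b1, b2, b3⟩ := repar hi (fun z hz => hl z hz.1 hz.2) (ε := ε) (ne_of_gt h3) fun z hz => by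
    rw [mem_ofPred_eq, norm_pw _ (an_ne (by norm_num) hz)]
    refine ⟨lt_trans ?_ (Real.rpow_lt_rpow (by norm_num) hz.1 h3),
      (Real.rpow_lt_rpow (norm_nonneg _) hz.2 h3).trans (h2.trans_le (min_le_left _ _))⟩
    rw [Real.inv_rpow (by norm_num), lt_inv_comm₀ ha (by positivity)]
    exact h2.trans_le (min_le_right _ _)
  exact b3 ▸ fat b1 b2

end Crest.Agent.X212.Sch47
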